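import Vale.Agent.P159.TM.H963.Sub
import Vale.Agent.P159.R2.H254.Main1

/-!
Square blocks: heights on a block and on a sub-block.
-/

open MeasureTheory Filter Topology

namespace Vale.Agent.P159.TM.H963

open Vale.Agent.P159 Vale.Agent.P159.H353 Vale.Agent.P159.R2.H254 Vale.Agent.P159.T1.H934
  Vale.Agent.P159.T1.H910

/-- a graph on which all functions with vanishing gradient are constant is connected -/
lemma conn_of_const {V E : Type} {s t : E → V}
    (h : ∀ f : V → ℤ, grd s t f = 0 → ∀ u v, f u = f v) : Conn s t := by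
  classical
  intro u
  set f : V → ℤ := fun v => if Relation.ReflTransGen (adjG s t) u v then 1 else 0 with hf
  have h1 : grd s t f = 0 := by
    funext e
    show f (t e) - f (s e) = 0
    have a1 : adjG s t (s e) (t e) := ⟨e, Or.inl ⟨rfl, rfl⟩⟩
    have a2 : adjG s t (t e) (s e) := ⟨e, Or.inr ⟨rfl, rfl⟩⟩
    have h2 : Relation.ReflTransGen (adjG s t) u (s e) ↔
        Relation.ReflTransGen (adjG s t) u (t e) := ⟨fun h => h.tail a1, fun h => h.tail a2⟩
    simp only [hf]
    by_cases h3 : Relation.ReflTransGen (adjG s t) u (s e)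
    · rw [if_pos h3, if_pos (h2.1 h3), sub_self]
    · rw [if_neg h3, if_neg (fun h4 => h3 (h2.2 h4)), sub_self]
  intro v
  have h2 := h f h1 u v
  by_contra hv
  simp only [hf, hv, if_false, Relation.ReflTransGen.refl, if_true] at h2
  exact one_ne_zero h2

lemma grd_blk {N : ℕ} (h : Fa N → ℤ) : grd (brt (N := N)) blf h = bcur h := rfl

lemma conn_blk (N : ℕ) : Conn (brt (N := N)) blf := by
  refine conn_of_const fun f hf u v => ?_
  have h1 : ∀ e, bcur f e = 0 := fun e => congrFun hf e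
  rw [const_of_bcur f h1 u, const_of_bcur f h1 v]

/-- real sums over the heights of the block -/
noncomputable def hS (N : ℕ) (b : ℝ) (f : (Fa N → ℤ) → ℝ) : ℝ :=
  ∑' h : Hgt N, hWt N b h.1 * f h.1

/-- real means over the heights of the block -/
noncomputable def mR (N : ℕ) (b : ℝ) (f : (Fa N → ℤ) → ℝ) : ℝ := hS N b f / hS N b fun _ => 1

lemma hS_eq {N : ℕ} {b : ℝ} (hb : 0 ≤ b) (f : (Fa N → ℤ) → ℝ) :
    hS N b f = ∑' h : pinG ((0, 0) : Fa N), W (DP brt blf (0, 0)) (fun _ => b) h * f h.1 := by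
  unfold hS
  let e : Hgt N ≃ pinG ((0, 0) : Fa N) := Equiv.subtypeEquivRight (fun _ => Iff.rfl)
  rw [← e.tsum_eq]
  refine tsum_congr fun h => ?_
  rw [hWt_eq hb]
  rfl

lemma hS_eq1 {N : ℕ} {b : ℝ} (hb : 0 ≤ b) :
    (hS N b fun _ => 1) = ∑' h : pinG ((0, 0) : Fa N), W (DP brt blf (0, 0)) (fun _ => b) h := by
  rw [hS_eq hb]
  simp

lemma hWt_nonneg {N : ℕ} {b : ℝ} (hb : 0 ≤ b) (h : Fa N → ℤ) : 0 ≤ hWt N b h := by
  rw [hWt_eq hb]
  exact Finset.prod_nonneg fun e _ => wI_nonneg hb _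

lemma hWt_summable {N : ℕ} {b : ℝ} (hb : 0 ≤ b) : Summable fun h : Hgt N => hWt N b h.1 := by
  have h1 := W_summable (DP_inj (conn_blk N) (0, 0)) (J := fun _ => b) fun _ => hb
  let e : Hgt N ≃ pinG ((0, 0) : Fa N) := Equiv.subtypeEquivRight (fun _ => Iff.rfl)
  refine ((e.summable_iff).2 h1).congr fun h => ?_
  rw [hWt_eq hb]
  rfl

lemma hS_pos {N : ℕ} {b : ℝ} (hb : 0 ≤ b) : 0 < hS N b fun _ => 1 := by
  have hs : Summable fun h : Hgt N => hWt N b h.1 * 1 := by
    simpa using hWt_summable (N := N) hb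
  have h1 : hWt N b (0 : Fa N → ℤ) * 1 ≤ hS N b fun _ => 1 :=
    hs.le_tsum (⟨0, rfl⟩ : Hgt N) fun h _ => by
      rw [mul_one]; exact hWt_nonneg hb _
  have h2 : 0 < hWt N b (0 : Fa N → ℤ) := by
    rw [hWt_eq hb]
    refine Finset.prod_pos fun e _ => ?_
    have : bcur (0 : Fa N → ℤ) e = 0 := by
      show (0 : ℤ) - 0 = 0
      rfl
    rw [this]
    exact wI_zero_pos hb
  linarith

/-- the parallelogram inequality on the block -/
theorem mR_par {N : ℕ} {b : ℝ} (hb : 0 ≤ b) (l m : (Fa N → ℤ) →+ ℝ) :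
    (mR N b (fun h => Real.cos (l h)) * mR N b (fun h => Real.cos (m h))) ^ 2 ≤
      mR N b (fun h => Real.cos (l h + m h)) * mR N b (fun h => Real.cos (l h - m h)) ∧
    0 ≤ mR N b (fun h => Real.cos (l h + m h)) := by
  have hp := par_cos (DP_inj (conn_blk N) (0, 0)) (J := fun _ => b) (fun _ => hb)
    (l.comp (pinG ((0, 0) : Fa N)).subtype) (m.comp (pinG ((0, 0) : Fa N)).subtype)
  have e1 : ∀ f : (Fa N → ℤ) → ℝ, hS N b f =
      ∑' h : pinG ((0, 0) : Fa N), W (DP brt blf (0, 0)) (fun _ => b) h * f h.1 := hS_eq hb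
  have e2 := hS_eq1 (N := N) hb
  have hpos := hS_pos (N := N) hb
  have p1 : (hS N b (fun h => Real.cos (l h)) * hS N b (fun h => Real.cos (m h))) ^ 2 ≤
      (hS N b fun _ => 1) ^ 2 * (hS N b (fun h => Real.cos (l h + m h)) *
        hS N b (fun h => Real.cos (l h - m h))) ∧
      0 ≤ hS N b (fun h => Real.cos (l h + m h)) := by
    rw [e2]
    simp only [e1]
    exact hp
  unfold mR
  set Z := hS N b fun _ => 1 with hZ
  refine ⟨?_, div_nonneg p1.2 hpos.le⟩
  rw [div_mul_div_comm, div_mul_div_comm, div_pow, div_le_div_iff₀ (by positivity) (by positivity)]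
  have := p1.1
  nlinarith [mul_pos hpos hpos, this, mul_le_mul_of_nonneg_right this
    (mul_pos hpos hpos).le]

lemma mR_le_one {N : ℕ} {b : ℝ} (hb : 0 ≤ b) (f : (Fa N → ℤ) → ℝ) :
    |mR N b (fun h => Real.cos (f h))| ≤ 1 := by
  have hpos := hS_pos (N := N) hb
  unfold mR
  rw [abs_div, abs_of_pos hpos, div_le_one hpos]
  unfold hS
  have hs := hWt_summable (N := N) hb
  have h1 : Summable fun h : Hgt N => |hWt N b h.1 * Real.cos (f h.1)| :=
    Summable.of_nonneg_of_le (fun _ => abs_nonneg _) (fun h => by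
      rw [abs_mul, abs_of_nonneg (hWt_nonneg hb _)]
      exact mul_le_of_le_one_right (hWt_nonneg hb _) (Real.abs_cos_le_one _)) hs
  have h2 : Summable fun h : Hgt N => ‖hWt N b h.1 * Real.cos (f h.1)‖ := h1
  refine (norm_tsum_le_tsum_norm h2).trans ?_
  refine Summable.tsum_le_tsum (fun h => ?_) h2 (by simpa using hs)
  rw [Real.norm_eq_abs]
  rw [abs_mul, abs_of_nonneg (hWt_nonneg hb _)]
  exact mul_le_mul_of_nonneg_left (Real.abs_cos_le_one _) (hWt_nonneg hb _)

/-! ### sub-blocks -/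

/-- the faces of a sub-block with lower left face `(p, q)` -/
def shF {N L p q : ℕ} (hp : p + N ≤ L) (hq : q + N ≤ L) (x : Fa N) : Fa L :=
  (⟨x.1.1 + p, by have := x.1.2; omega⟩, ⟨x.2.1 + q, by have := x.2.2; omega⟩)

/-- the bonds of a sub-block -/
def shE {N L p q : ℕ} (hp : p + N ≤ L) (hq : q + N ≤ L) : Eb N → Eb L
  | Sum.inl x => Sum.inl (⟨x.1.1 + p, by have := x.1.2; omega⟩, ⟨x.2.1 + q, by
      have := x.2.2; omega⟩)
  | Sum.inr x => Sum.inr (⟨x.1.1 + p, by have := x.1.2; omega⟩, ⟨x.2.1 + q, by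
      have := x.2.2; omega⟩)

lemma shE_inj {N L p q : ℕ} (hp : p + N ≤ L) (hq : q + N ≤ L) :
    Function.Injective (shE hp hq) := by
  intro a b h
  rcases a with a | a <;> rcases b with b | b
  · simp only [shE, Sum.inl.injEq, Prod.mk.injEq, Fin.mk.injEq] at h
    have h1 : a.1.1 = b.1.1 := by omega
    have h2 : a.2.1 = b.2.1 := by omega
    exact congrArg Sum.inl (Prod.ext (Fin.ext h1) (Fin.ext h2))
  · simp [shE] at h
  · simp [shE] at h
  · simp only [shE, Sum.inr.injEq, Prod.mk.injEq, Fin.mk.injEq] at h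
    have h1 : a.1.1 = b.1.1 := by omega
    have h2 : a.2.1 = b.2.1 := by omega
    exact congrArg Sum.inr (Prod.ext (Fin.ext h1) (Fin.ext h2))

lemma blf_shE {N L p q : ℕ} (hp : p + N ≤ L) (hq : q + N ≤ L) (e : Eb N) :
    blf (shE hp hq e) = shF hp hq (blf e) := by
  rcases e with e | e
  · rfl
  · refine Prod.ext (Fin.ext ?_) (Fin.ext ?_)
    · rfl
    · show e.2.1 + q + 1 = e.2.1 + 1 + q
      ring

lemma brt_shE {N L p q : ℕ} (hp : p + N ≤ L) (hq : q + N ≤ L) (e : Eb N) :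
    brt (shE hp hq e) = shF hp hq (brt e) := by
  rcases e with e | e
  · refine Prod.ext (Fin.ext ?_) (Fin.ext ?_)
    · show e.1.1 + p + 1 = e.1.1 + 1 + p
      ring
    · rfl
  · rfl

section reindex

variable {V E E1 : Type} [Fintype E] [Fintype E1]

omit [Fintype E] [Fintype E1] in
lemma conn_reindex {s t : E → V} (hc : Conn s t) (φ : E1 ≃ E) :
    Conn (fun e => s (φ e)) fun e => t (φ e) := by
  refine conn_of_const fun f hf u v => conn_const hc ?_ u v
  funext e
  have := congrFun hf (φ.symm e)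
  simpa [grd] using this

lemma W_reindex (s t : E → V) (J : E → ℝ) (x0 : V) (φ : E1 ≃ E) (h : pinG x0) :
    W (DP (fun e => s (φ e)) (fun e => t (φ e)) x0) (fun e => J (φ e)) h = W (DP s t x0) J h := by
  unfold W
  exact φ.prod_comp fun e => wI (J e) (DP s t x0 h e)

end reindex

/-- **A cosine on a sub-block has a smaller mean than on the block.** -/
theorem mR_sub {N L p q : ℕ} (hp : p + N ≤ L) (hq : q + N ≤ L) {b : ℝ} (hb : 0 ≤ b)
    (l : (Fa N → ℤ) →+ ℝ) (hl : ∀ (h : Fa N → ℤ) (k : ℤ),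
      Real.cos (l fun v => h v + k) = Real.cos (l h)) :
    mR N b (fun h => Real.cos (l h)) ≤
      mR L b (fun h => Real.cos (l fun v => h (shF hp hq v))) := by
  classical
  set η := shE hp hq with hη
  let φ : Eb N ⊕ ↥((Set.range η)ᶜ) ≃ Eb L :=
    (Equiv.sumCongr (Equiv.ofInjective η (shE_inj hp hq)) (Equiv.refl _)).trans
      (Equiv.Set.sumCompl (Set.range η))
  have hφ : ∀ e, φ (Sum.inl e) = η e := fun e => rfl
  have hc := conn_reindex (conn_blk L) φ
  have h1 := sub_cos (s := fun e => brt (φ e)) (t := fun e => blf (φ e)) hc (conn_blk N)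
    (shF hp hq) (fun e => by rw [hφ, hη, brt_shE]) (fun e => by rw [hφ, hη, blf_shE]) (0, 0)
    (J := fun _ => b) (fun _ => hb) l
  have e1 : ∀ h : pinG (shF hp hq ((0, 0) : Fa N)),
      W (DP (fun e => brt (φ e)) (fun e => blf (φ e)) (shF hp hq (0, 0))) (fun _ => b) h =
      W (DP brt blf (shF hp hq (0, 0))) (fun _ => b) h := fun h =>
    W_reindex brt blf (fun _ => b) _ φ h
  simp only [e1] at h1
  have p1 := pin_change (V := Fa L) brt blf (shF hp hq (0, 0)) (0, 0) (fun _ => b)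
    (f := fun h => Real.cos (l fun v => h (shF hp hq v))) (fun h k => hl _ k)
  have p2 := pin_change (V := Fa L) brt blf (shF hp hq (0, 0)) (0, 0) (fun _ => b)
    (f := fun _ => 1) (fun h k => rfl)
  simp only [mul_one] at p2
  rw [p1, p2, ← hS_eq1 hb, ← hS_eq1 hb] at h1
  rw [← hS_eq hb (fun h => Real.cos (l h)),
    ← hS_eq hb (fun h => Real.cos (l fun v => h (shF hp hq v)))] at h1
  unfold mR
  rw [div_le_div_iff₀ (hS_pos hb) (hS_pos hb)]
  exact h1

end Vale.Agent.P159.TM.H963
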