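import Mathlib

/-!
Sums of cosines over a corner interval and the divergence of the sum over the modes.
-/

open Finset Filter Topology

namespace Vale.Agent.P159.TM.H963

lemma cs_sum (θ : ℝ) (n : ℕ) :
    2 * Real.sin (θ / 2) * ∑ i ∈ range n, Real.cos (((i : ℝ) + 1 / 2) * θ) = Real.sin (n * θ) := by
  induction n with
  | zero => simp
  | succ n ih =>
    rw [sum_range_succ, mul_add, ih]
    have e1 : ((n + 1 : ℕ) : ℝ) * θ = ((n : ℝ) + 1 / 2) * θ + θ / 2 := by push_cast; ring
    have e2 : (n : ℝ) * θ = ((n : ℝ) + 1 / 2) * θ - θ / 2 := by ring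
    rw [e1, e2, Real.sin_add, Real.sin_sub]
    ring

/-- normalised integral of a cosine over the interval `[0, 1/R]` -/
noncomputable def Sp (R p : ℕ) : ℝ :=
  if p = 0 then 1 / R else Real.sin (p * Real.pi / R) / (p * Real.pi)

lemma sin_lim (a : ℝ) (x : ℕ → ℝ) (hx : Tendsto x atTop atTop) :
    Tendsto (fun n => 2 * x n * Real.sin (a / x n / 2)) atTop (𝓝 a) := by
  have h1 : Tendsto (fun n => a / x n / 2) atTop (𝓝 0) := by
    have : Tendsto (fun n => a / x n) atTop (𝓝 0) := hx.const_div_atTop a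
    simpa using this.div_const 2
  have h2 := (Real.continuous_sinc.tendsto 0).comp h1
  rw [Real.sinc_zero] at h2
  have h3 := h2.const_mul a
  rw [mul_one] at h3
  refine h3.congr' ?_
  filter_upwards [hx.eventually_gt_atTop 0] with n hn
  simp only [Function.comp_apply]
  by_cases ha : a = 0
  · simp [ha]
  · have hne : a / x n / 2 ≠ 0 := by
      have := hn.ne'
      positivity
    rw [Real.sinc_of_ne_zero hne]
    have := hn.ne'
    field_simp

lemma Sp_lim (R p : ℕ) (hR : 0 < R) :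
    Tendsto (fun N : ℕ => (∑ i : Fin (N + 1), Real.cos (p * Real.pi *
      (((i : ℝ) + 1 / 2) / (R * ((N : ℝ) + 1))))) / (R * ((N : ℝ) + 1))) atTop (𝓝 (Sp R p)) := by
  have hR' : (0 : ℝ) < R := by exact_mod_cast hR
  unfold Sp
  split_ifs with hp
  · subst hp
    refine tendsto_const_nhds.congr fun N => ?_
    have hN : (0 : ℝ) < (N : ℝ) + 1 := by positivity
    simp only [Nat.cast_zero, zero_mul, Real.cos_zero, sum_const, card_univ, Fintype.card_fin,
      nsmul_eq_mul, mul_one]
    push_cast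
    field_simp
  · have hp' : (0 : ℝ) < p := by
      have : 0 < p := Nat.pos_of_ne_zero hp
      exact_mod_cast this
    have hx : Tendsto (fun N : ℕ => (R : ℝ) * ((N : ℝ) + 1)) atTop atTop := by
      refine Tendsto.const_mul_atTop hR' ?_
      exact tendsto_atTop_add_const_right _ _ tendsto_natCast_atTop_atTop
    have h1 := sin_lim (p * Real.pi) _ hx
    have hpi := Real.pi_pos
    have h2 := (tendsto_const_nhds (x := Real.sin (p * Real.pi / R)) (f := atTop)).div h1
      (by positivity)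
    refine h2.congr' ?_
    have h3 : ∀ᶠ N : ℕ in atTop, (0 : ℝ) < 2 * ((R : ℝ) * ((N : ℝ) + 1)) *
        Real.sin (p * Real.pi / ((R : ℝ) * ((N : ℝ) + 1)) / 2) :=
      h1.eventually (lt_mem_nhds (by positivity))
    filter_upwards [h3] with N hN
    have hx0 : (0 : ℝ) < R * ((N : ℝ) + 1) := by positivity
    have h4 := cs_sum (p * Real.pi / ((R : ℝ) * ((N : ℝ) + 1))) (N + 1)
    rw [← Fin.sum_univ_eq_sum_range (fun i => Real.cos (((i : ℝ) + 1 / 2) *
      (p * Real.pi / ((R : ℝ) * ((N : ℝ) + 1)))))] at h4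
    have e1 : ((N + 1 : ℕ) : ℝ) * (p * Real.pi / ((R : ℝ) * ((N : ℝ) + 1))) =
        p * Real.pi / R := by
      push_cast
      have : (0 : ℝ) < (N : ℝ) + 1 := by positivity
      field_simp
    rw [e1] at h4
    have e2 : ∑ i : Fin (N + 1), Real.cos (((i : ℕ) : ℝ) + 1 / 2 |> fun t => t *
      (p * Real.pi / ((R : ℝ) * ((N : ℝ) + 1)))) = ∑ i : Fin (N + 1), Real.cos (p * Real.pi *
      (((i : ℝ) + 1 / 2) / (R * ((N : ℝ) + 1)))) := by
      refine sum_congr rfl fun i _ => ?_
      congr 1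
      simp only
      ring
    simp only at e2
    rw [e2] at h4
    have hs : 0 < Real.sin (p * Real.pi / ((R : ℝ) * ((N : ℝ) + 1)) / 2) := by
      by_contra hcon
      push Not at hcon
      have : 2 * ((R : ℝ) * ((N : ℝ) + 1)) *
        Real.sin (p * Real.pi / ((R : ℝ) * ((N : ℝ) + 1)) / 2) ≤ 0 :=
        mul_nonpos_of_nonneg_of_nonpos (by positivity) hcon
      linarith
    show Real.sin (p * Real.pi / R) / _ = _
    rw [div_eq_div_iff hN.ne' hx0.ne', ← h4]
    ring

lemma Sp_ge (R p : ℕ) (hR : 0 < R) (hp : 2 * p ≤ R) : 2 / (Real.pi * R) ≤ Sp R p := by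
  have hR' : (0 : ℝ) < R := by exact_mod_cast hR
  have hpi := Real.pi_pos
  unfold Sp
  split_ifs with h
  · rw [div_le_div_iff₀ (by positivity) hR']
    nlinarith [Real.pi_gt_three]
  · have hp' : (0 : ℝ) < p := by
      have : 0 < p := Nat.pos_of_ne_zero h
      exact_mod_cast this
    have h2 : (2 : ℝ) * p ≤ R := by exact_mod_cast hp
    have h1 := Real.mul_le_sin (x := p * Real.pi / R) (by positivity) (by
      rw [div_le_iff₀ hR']
      nlinarith)
    rw [div_le_div_iff₀ (by positivity) (by positivity)]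
    have h3 : 2 / Real.pi * (p * Real.pi / R) = 2 * p / R := by
      field_simp
    rw [h3, div_le_iff₀ hR'] at h1
    calc 2 * ((p : ℝ) * Real.pi) = (2 * p) * Real.pi := by ring
      _ ≤ (Real.sin (p * Real.pi / R) * R) * Real.pi := by
          exact mul_le_mul_of_nonneg_right h1 hpi.le
      _ = _ := by ring

/-- the modes used for the lower bound -/
def KA (A : ℕ) : Finset (ℕ × ℕ) :=
  (range A).biUnion fun a => (range (a + 1)).image fun c => (2 * a + 1, 2 * c)

lemma mem_KA {A : ℕ} {k : ℕ × ℕ} (hk : k ∈ KA A) :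
    Odd (k.1 + k.2) ∧ k ≠ (0, 0) ∧ k.1 ≤ 2 * A ∧ k.2 ≤ 2 * A := by
  unfold KA at hk
  simp only [mem_biUnion, mem_range, mem_image] at hk
  obtain ⟨a, ha, c, hc, rfl⟩ := hk
  refine ⟨⟨a + c, by simp; ring⟩, by simp, by simp; omega, by simp; omega⟩

lemma sum_KA (A : ℕ) :
    (∑ a ∈ range A, 1 / ((a : ℝ) + 1)) / 8 ≤
      ∑ k ∈ KA A, 1 / ((k.1 : ℝ) ^ 2 + (k.2 : ℝ) ^ 2) := by
  unfold KA
  rw [sum_biUnion, sum_div]
  · refine sum_le_sum fun a _ => ?_
    rw [sum_image]
    · have h1 : ∀ c ∈ range (a + 1), 1 / (8 * ((a : ℝ) + 1) ^ 2) ≤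
          1 / ((((2 * a + 1, 2 * c) : ℕ × ℕ).1 : ℝ) ^ 2 +
            (((2 * a + 1, 2 * c) : ℕ × ℕ).2 : ℝ) ^ 2) := by
        intro c hc
        have hc' : (c : ℝ) ≤ a := by
          have := mem_range.1 hc
          exact_mod_cast Nat.lt_succ_iff.1 this
        have h0 : (0 : ℝ) ≤ c := Nat.cast_nonneg c
        have h00 : (0 : ℝ) ≤ a := Nat.cast_nonneg a
        apply one_div_le_one_div_of_le
        · push_cast
          positivity
        · push_cast
          nlinarith
      have h2 := card_nsmul_le_sum (range (a + 1)) _ _ h1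
      refine le_trans (le_of_eq ?_) h2
      rw [card_range, nsmul_eq_mul]
      have h00 : (0 : ℝ) ≤ a := Nat.cast_nonneg a
      push_cast
      field_simp
    · intro c _ d _ h
      simpa using h
  · intro a _ a' _ haa
    rw [Function.onFun, disjoint_left]
    intro k hk hk'
    simp only [mem_image] at hk hk'
    obtain ⟨c, _, rfl⟩ := hk
    obtain ⟨d, _, h⟩ := hk'
    simp only [Prod.mk.injEq] at h
    omega

lemma harm_unbounded (C : ℝ) : ∃ A : ℕ, 0 < A ∧ C ≤ ∑ a ∈ range A, 1 / ((a : ℝ) + 1) := by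
  have h1 := Real.tendsto_sum_range_one_div_nat_succ_atTop
  obtain ⟨A, hA, hA0⟩ := ((h1.eventually_ge_atTop C).and (eventually_gt_atTop 0)).exists
  exact ⟨A, hA0, hA⟩

end Vale.Agent.P159.TM.H963
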