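import Vale.Agent.P159.TM.H963.Block
import Vale.Agent.P159.TM.H963.Trig
import Vale.Agent.P159.TM.H968.Blk

/-!
The mean of `exp (2 π i m × spatial mean of the heights)` tends to zero.
-/

open Finset Filter Topology

namespace Vale.Agent.P159.TM.H963

open Vale.Agent.P159 Vale.Agent.P159.H353 Vale.Agent.P159.R2.H254 Vale.Agent.P159.TM.H968

/-! ### real and complex means -/

lemma summable_cplx {N : ℕ} {b : ℝ} (hb : 0 ≤ b) (f : (Fa N → ℤ) → ℝ) :
    Summable fun h : Hgt N => (hWt N b h.1 : ℂ) * Complex.exp (Complex.I * (f h.1 : ℝ)) := by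
  refine Summable.of_norm_bounded (hWt_summable (N := N) hb) fun h => ?_
  rw [norm_mul, Complex.norm_real, Real.norm_eq_abs, abs_of_nonneg (hWt_nonneg hb _),
    mul_comm Complex.I, Complex.norm_exp_ofReal_mul_I, mul_one]

lemma hMean_exp {N : ℕ} {b : ℝ} (hb : 0 ≤ b) (f : (Fa N → ℤ) → ℝ) :
    hMean N b (fun h => Complex.exp (Complex.I * (f h : ℝ))) =
      (mR N b (fun h => Real.cos (f h)) : ℂ) + (mR N b (fun h => Real.sin (f h)) : ℂ) *
        Complex.I := by
  have hs := summable_cplx (N := N) hb f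
  have hw := hWt_summable (N := N) hb
  have sc : Summable fun h : Hgt N => hWt N b h.1 * Real.cos (f h.1) := by
    refine Summable.of_norm_bounded hw fun h => ?_
    rw [norm_mul, Real.norm_eq_abs, Real.norm_eq_abs, abs_of_nonneg (hWt_nonneg hb _)]
    exact mul_le_of_le_one_right (hWt_nonneg hb _) (Real.abs_cos_le_one _)
  have ss : Summable fun h : Hgt N => hWt N b h.1 * Real.sin (f h.1) := by
    refine Summable.of_norm_bounded hw fun h => ?_
    rw [norm_mul, Real.norm_eq_abs, Real.norm_eq_abs, abs_of_nonneg (hWt_nonneg hb _)]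
    exact mul_le_of_le_one_right (hWt_nonneg hb _) (Real.abs_sin_le_one _)
  have e1 : ∀ h : Hgt N, (hWt N b h.1 : ℂ) * Complex.exp (Complex.I * (f h.1 : ℝ)) =
      ((hWt N b h.1 * Real.cos (f h.1) : ℝ) : ℂ) +
        ((hWt N b h.1 * Real.sin (f h.1) : ℝ) : ℂ) * Complex.I := by
    intro h
    rw [mul_comm Complex.I, Complex.exp_mul_I]
    push_cast
    ring
  have hpos := (hS_pos (N := N) hb).ne'
  have e2 : (∑' h : Hgt N, hWt N b h.1 : ℝ) = hS N b fun _ => 1 := by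
    unfold hS
    simp
  have sc' : Summable fun h : Hgt N => ((hWt N b h.1 * Real.cos (f h.1) : ℝ) : ℂ) := by
    exact Complex.ofRealCLM.summable sc
  have ss' : Summable fun h : Hgt N => ((hWt N b h.1 * Real.sin (f h.1) : ℝ) : ℂ) *
      Complex.I := by
    have := (Complex.ofRealCLM.summable ss).mul_right Complex.I
    exact this
  unfold hMean mR
  rw [tsum_congr e1, Summable.tsum_add sc' ss', tsum_mul_right, ← Complex.ofReal_tsum,
    ← Complex.ofReal_tsum, e2]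
  unfold hS
  push_cast
  ring

lemma mR_sin {N : ℕ} {b : ℝ} (hb : 0 ≤ b) (l : (Fa N → ℤ) →+ ℝ) :
    mR N b (fun h => Real.sin (l h)) = 0 := by
  unfold mR
  rw [hS_eq hb]
  have h1 := sin_zero_sum (T1.H934.grd (brt (N := N)) blf |>.comp (pinG ((0, 0) : Fa N)).subtype)
    (fun _ => b) (l.comp (pinG ((0, 0) : Fa N)).subtype)
  have h2 : ∑' h : pinG ((0, 0) : Fa N), T1.H934.W (DP brt blf (0, 0)) (fun _ => b) h *
      Real.sin (l h.1) = 0 := h1
  rw [h2, zero_div]

/-- the mean of a character -/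
lemma hMean_char {N : ℕ} {b : ℝ} (hb : 0 ≤ b) (l : (Fa N → ℤ) →+ ℝ) :
    hMean N b (fun h => Complex.exp (Complex.I * (l h : ℝ))) =
      (mR N b (fun h => Real.cos (l h)) : ℂ) := by
  rw [hMean_exp hb, mR_sin hb]
  simp

/-! ### functionals -/

/-- the pairing as a homomorphism -/
noncomputable def prH {N : ℕ} (u : Fa N → ℝ) : (Fa N → ℤ) →+ ℝ where
  toFun := pr u
  map_zero' := by unfold pr; simp
  map_add' a b := by
    unfold pr
    rw [← add_div, ← sum_add_distrib]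
    congr 1
    refine sum_congr rfl fun x _ => ?_
    simp only [Pi.add_apply]
    push_cast
    ring

lemma prH_apply {N : ℕ} (u : Fa N → ℝ) (h : Fa N → ℤ) : prH u h = pr u h := rfl

/-- the spatial mean -/
noncomputable def av {N : ℕ} (h : Fa N → ℤ) : ℝ := (∑ x, (h x : ℝ)) / ((N : ℝ) + 1) ^ 2

lemma av_eq {N : ℕ} (h : Fa N → ℤ) : av h = pr (fun _ => 1) h := by
  unfold av pr
  simp

/-- a multiple of the spatial mean -/
noncomputable def avH {N : ℕ} (c : ℝ) : (Fa N → ℤ) →+ ℝ := prH fun _ => c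

lemma avH_apply {N : ℕ} (c : ℝ) (h : Fa N → ℤ) : avH c h = c * av h := by
  show pr (fun _ => c) h = _
  unfold pr av
  rw [← mul_sum]
  ring

lemma av_add_const {N : ℕ} (h : Fa N → ℤ) (k : ℤ) : av (fun v => h v + k) = av h + k := by
  unfold av
  have hN : (0 : ℝ) < (N : ℝ) + 1 := by positivity
  have e1 : ∑ x : Fa N, ((h x + k : ℤ) : ℝ) = ∑ x, (h x : ℝ) + ((N : ℝ) + 1) ^ 2 * k := by
    push_cast
    rw [sum_add_distrib, sum_const, card_univ, Fintype.card_prod, Fintype.card_fin, nsmul_eq_mul]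
    push_cast
    ring
  rw [e1]
  field_simp

lemma cos_av_add {N : ℕ} (m : ℤ) (h : Fa N → ℤ) (k : ℤ) :
    Real.cos (avH (2 * Real.pi * m) fun v => h v + k) = Real.cos (avH (2 * Real.pi * m) h) := by
  rw [avH_apply, avH_apply, av_add_const]
  have : 2 * Real.pi * m * (av h + k) = 2 * Real.pi * m * av h + ((m * k : ℤ) : ℝ) *
      (2 * Real.pi) := by
    push_cast
    ring
  rw [this, Real.cos_add_int_mul_two_pi]

/-! ### corner blocks -/

/-- side of the large block minus one -/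
def nu (R N : ℕ) : ℕ := R * (N + 1) - 1

lemma nu_add {R : ℕ} (hR : 0 < R) (N : ℕ) : nu R N + 1 = R * (N + 1) := by
  unfold nu
  have : 1 ≤ R * (N + 1) := Nat.succ_le_of_lt (by positivity)
  omega

lemma nu_cast {R : ℕ} (hR : 0 < R) (N : ℕ) : ((nu R N : ℕ) : ℝ) + 1 = R * ((N : ℝ) + 1) := by
  have := nu_add hR N
  exact_mod_cast this

lemma le_nu {R : ℕ} (hR : 0 < R) (N : ℕ) : N ≤ nu R N := by
  have h1 := nu_add hR N
  have h2 : 1 * (N + 1) ≤ R * (N + 1) := Nat.mul_le_mul_right _ hR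
  omega

/-- lower left corner block -/
def cA {R : ℕ} (hR : 0 < R) (N : ℕ) : Fa N → Fa (nu R N) :=
  shF (p := 0) (q := 0) (by have := le_nu hR N; omega) (by have := le_nu hR N; omega)

/-- upper right corner block -/
def cB {R : ℕ} (hR : 0 < R) (N : ℕ) : Fa N → Fa (nu R N) :=
  shF (p := nu R N - N) (q := nu R N - N) (by have := le_nu hR N; omega)
    (by have := le_nu hR N; omega)

lemma shF_inj {N L p q : ℕ} (hp : p + N ≤ L) (hq : q + N ≤ L) :
    Function.Injective (shF hp hq) := by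
  intro a b h
  simp only [shF, Prod.mk.injEq, Fin.mk.injEq] at h
  have h1 : a.1.1 = b.1.1 := by omega
  have h2 : a.2.1 = b.2.1 := by omega
  exact Prod.ext (Fin.ext h1) (Fin.ext h2)

open Classical in
/-- the charge: corner block minus corner block -/
noncomputable def uAB {R : ℕ} (hR : 0 < R) (c : ℝ) (N : ℕ) (y : Fa (nu R N)) : ℝ :=
  c * (R : ℝ) ^ 2 * ((if y ∈ univ.image (cA hR N) then 1 else 0) -
    if y ∈ univ.image (cB hR N) then 1 else 0)

lemma sum_uAB {R : ℕ} (hR : 0 < R) (c : ℝ) (N : ℕ) (f : Fa (nu R N) → ℝ) :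
    ∑ y, uAB hR c N y * f y = c * (R : ℝ) ^ 2 * (∑ x, f (cA hR N x) - ∑ x, f (cB hR N x)) := by
  classical
  have e1 : ∀ g : Fa N → Fa (nu R N), Function.Injective g →
      ∑ y, (if y ∈ univ.image g then (1 : ℝ) else 0) * f y = ∑ x, f (g x) := by
    intro g hg
    simp only [ite_mul, one_mul, zero_mul, sum_ite_mem, univ_inter]
    exact sum_image fun a _ b _ h => hg h
  have e2 : ∀ y, uAB hR c N y * f y = c * (R : ℝ) ^ 2 *
      ((if y ∈ univ.image (cA hR N) then (1 : ℝ) else 0) * f y -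
        (if y ∈ univ.image (cB hR N) then (1 : ℝ) else 0) * f y) := by
    intro y
    unfold uAB
    ring
  rw [sum_congr rfl fun y _ => e2 y, ← mul_sum, sum_sub_distrib, e1 (cA hR N) (shF_inj _ _),
    e1 (cB hR N) (shF_inj _ _)]

lemma uAB_zero {R : ℕ} (hR : 0 < R) (c : ℝ) (N : ℕ) : ∑ y, uAB hR c N y = 0 := by
  have h := sum_uAB hR c N fun _ => 1
  simpa using h

lemma uAB_sq {R : ℕ} (hR : 0 < R) (c : ℝ) (N : ℕ) :
    (∑ y, uAB hR c N y ^ 2) / (((nu R N : ℕ) : ℝ) + 1) ^ 2 ≤ (c * (R : ℝ) ^ 2) ^ 2 := by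
  classical
  have hN : (0 : ℝ) < ((nu R N : ℕ) : ℝ) + 1 := by positivity
  rw [div_le_iff₀ (by positivity)]
  have h1 : ∀ y ∈ (univ : Finset (Fa (nu R N))), uAB hR c N y ^ 2 ≤ (c * (R : ℝ) ^ 2) ^ 2 := by
    intro y _
    unfold uAB
    rw [mul_pow]
    refine mul_le_of_le_one_right (sq_nonneg _) ?_
    split_ifs <;> norm_num
  refine (sum_le_card_nsmul _ _ _ h1).trans (le_of_eq ?_)
  rw [card_univ, Fintype.card_prod, Fintype.card_fin, nsmul_eq_mul]
  push_cast
  ring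

lemma pr_uAB {R : ℕ} (hR : 0 < R) (c : ℝ) (N : ℕ) (h : Fa (nu R N) → ℤ) :
    pr (uAB hR c N) h = c * (av (fun x => h (cA hR N x)) - av fun x => h (cB hR N x)) := by
  unfold pr av
  rw [sum_uAB, nu_cast hR]
  have hN : (0 : ℝ) < (N : ℝ) + 1 := by positivity
  have hR' : (0 : ℝ) < R := by exact_mod_cast hR
  field_simp

/-- sum of a cosine over the corner interval -/
noncomputable def sA (R p N : ℕ) : ℝ :=
  (∑ i : Fin (N + 1), Real.cos (p * Real.pi * (((i : ℝ) + 1 / 2) / (R * ((N : ℝ) + 1))))) /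
    (R * ((N : ℝ) + 1))

lemma sA_mul {R : ℕ} (hR : 0 < R) (p N : ℕ) :
    ∑ i : Fin (N + 1), Real.cos (p * Real.pi * (((i : ℝ) + 1 / 2) / (R * ((N : ℝ) + 1)))) =
      sA R p N * (R * ((N : ℝ) + 1)) := by
  have hN : (0 : ℝ) < (N : ℝ) + 1 := by positivity
  have hR' : (0 : ℝ) < R := by exact_mod_cast hR
  unfold sA
  rw [div_mul_cancel₀ _ (mul_pos hR' hN).ne']

lemma sum_cA {R : ℕ} (hR : 0 < R) (N : ℕ) (k : ℕ × ℕ) :
    ∑ x, c2 (nu R N) k (cA hR N x) = sA R k.1 N * sA R k.2 N * (R * ((N : ℝ) + 1)) ^ 2 := by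
  have hN : (0 : ℝ) < (N : ℝ) + 1 := by positivity
  have hR' : (0 : ℝ) < R := by exact_mod_cast hR
  have e1 : ∀ x : Fa N, c2 (nu R N) k (cA hR N x) =
      Real.cos (k.1 * Real.pi * (((x.1 : ℝ) + 1 / 2) / (R * ((N : ℝ) + 1)))) *
      Real.cos (k.2 * Real.pi * (((x.2 : ℝ) + 1 / 2) / (R * ((N : ℝ) + 1)))) := by
    intro x
    unfold c2 c1 ctr
    rw [nu_cast hR]
    simp [cA, shF]
  rw [sum_congr rfl fun x _ => e1 x, Fintype.sum_prod_type]
  simp only [← mul_sum, ← sum_mul]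
  rw [sA_mul hR, sA_mul hR]
  ring

lemma sum_cB {R : ℕ} (hR : 0 < R) (N : ℕ) (k : ℕ × ℕ) :
    ∑ x, c2 (nu R N) k (cB hR N x) =
      (-1) ^ (k.1 + k.2) * (sA R k.1 N * sA R k.2 N * (R * ((N : ℝ) + 1)) ^ 2) := by
  have hN : (0 : ℝ) < (N : ℝ) + 1 := by positivity
  have hR' : (0 : ℝ) < R := by exact_mod_cast hR
  have key : ∀ (p : ℕ) (i : Fin (N + 1)), c1 (nu R N) p
      (⟨i.1 + (nu R N - N), by have := i.2; have := le_nu hR N; omega⟩ : Fin (nu R N + 1)) =
      (-1) ^ p * Real.cos (p * Real.pi * (((i.rev : ℝ) + 1 / 2) / (R * ((N : ℝ) + 1)))) := by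
    intro p i
    unfold c1 ctr
    rw [nu_cast hR]
    have h2 := i.2
    have h3 := le_nu hR N
    have e1 : (((i.1 + (nu R N - N) : ℕ) : ℝ) + 1 / 2) / (R * ((N : ℝ) + 1)) =
        1 - (((i.rev : ℕ) : ℝ) + 1 / 2) / (R * ((N : ℝ) + 1)) := by
      have e2 : ((i.1 + (nu R N - N) : ℕ) : ℝ) = (i.1 : ℝ) + R * ((N : ℝ) + 1) - 1 - N := by
        rw [← nu_cast hR]
        push_cast [h3]
        ring
      have e3 : (((i.rev : ℕ) : ℝ)) = (N : ℝ) - i.1 := by
        have : ((i.rev : ℕ)) = N - i.1 := by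
          simp [Fin.val_rev]
        rw [this]
        push_cast [Nat.lt_succ_iff.1 h2]
        ring
      rw [e2, e3]
      field_simp
      ring
    simp only
    rw [e1]
    have e4 : (p : ℝ) * Real.pi * (1 - (((i.rev : ℕ) : ℝ) + 1 / 2) / (R * ((N : ℝ) + 1))) =
        p * Real.pi - p * Real.pi * ((((i.rev : ℕ) : ℝ) + 1 / 2) / (R * ((N : ℝ) + 1))) := by
      ring
    rw [e4, Real.cos_sub, Real.cos_nat_mul_pi, Real.sin_nat_mul_pi]
    ring
  have e1 : ∀ x : Fa N, c2 (nu R N) k (cB hR N x) =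
      ((-1) ^ k.1 * Real.cos (k.1 * Real.pi * (((x.1.rev : ℝ) + 1 / 2) / (R * ((N : ℝ) + 1))))) *
      ((-1) ^ k.2 * Real.cos (k.2 * Real.pi *
        (((x.2.rev : ℝ) + 1 / 2) / (R * ((N : ℝ) + 1))))) := by
    intro x
    rw [← key, ← key]
    rfl
  rw [sum_congr rfl fun x _ => e1 x, Fintype.sum_prod_type]
  simp only [← mul_sum, ← sum_mul]
  have e5 : ∀ p : ℕ, ∑ i : Fin (N + 1), Real.cos (p * Real.pi *
      (((i.rev : ℝ) + 1 / 2) / (R * ((N : ℝ) + 1)))) = sA R p N * (R * ((N : ℝ) + 1)) := by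
    intro p
    have h1 := Equiv.sum_comp Fin.revPerm (fun i : Fin (N + 1) => Real.cos (p * Real.pi *
      (((i : ℝ) + 1 / 2) / (R * ((N : ℝ) + 1)))))
    simp only [Fin.revPerm_apply] at h1
    rw [h1, sA_mul hR]
  rw [e5, e5, pow_add]
  ring

/-- limit of the cosine coefficients of the charge -/
noncomputable def phiAB (R : ℕ) (c : ℝ) (k : ℕ × ℕ) : ℝ :=
  c * (R : ℝ) ^ 2 * (1 - (-1) ^ (k.1 + k.2)) * (Sp R k.1 * Sp R k.2)

lemma dct_uAB {R : ℕ} (hR : 0 < R) (c : ℝ) (k : ℕ × ℕ) :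
    Tendsto (fun N => dct (nu R N) (uAB hR c N) k) atTop (𝓝 (phiAB R c k)) := by
  have h1 : ∀ N, dct (nu R N) (uAB hR c N) k =
      c * (R : ℝ) ^ 2 * (1 - (-1) ^ (k.1 + k.2)) * (sA R k.1 N * sA R k.2 N) := by
    intro N
    have hN : (0 : ℝ) < (N : ℝ) + 1 := by positivity
    have hR' : (0 : ℝ) < R := by exact_mod_cast hR
    unfold dct
    rw [sum_uAB, sum_cA, sum_cB, nu_cast hR]
    field_simp
  simp only [h1]
  exact ((Sp_lim R k.1 hR).mul (Sp_lim R k.2 hR)).const_mul _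

lemma sum_phiAB {A : ℕ} (hA : 0 < A) (c : ℝ) :
    c ^ 2 * (64 / Real.pi ^ 6) * ((∑ a ∈ range A, 1 / ((a : ℝ) + 1)) / 8) ≤
      ∑ k ∈ KA A, qk (phiAB (4 * A) c) k := by
  have hpi := Real.pi_pos
  have hA' : (0 : ℝ) < A := by exact_mod_cast hA
  refine (mul_le_mul_of_nonneg_left (sum_KA A) (by positivity)).trans ?_
  rw [mul_sum]
  refine sum_le_sum fun k hk => ?_
  obtain ⟨hodd, hk0, hk1, hk2⟩ := mem_KA hk
  have hR : 0 < 4 * A := by omega
  have s1 := Sp_ge (4 * A) k.1 hR (by omega)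
  have s2 := Sp_ge (4 * A) k.2 hR (by omega)
  have hq : 0 < (k.1 : ℝ) ^ 2 + (k.2 : ℝ) ^ 2 := by
    have h2 : k.1 ≠ 0 ∨ k.2 ≠ 0 := by
      by_contra hcon
      push Not at hcon
      exact hk0 (Prod.ext hcon.1 hcon.2)
    rcases h2 with h | h
    · have : (k.1 : ℝ) ≠ 0 := by exact_mod_cast h
      positivity
    · have : (k.2 : ℝ) ≠ 0 := by exact_mod_cast h
      positivity
  unfold qk
  rw [if_neg hk0]
  have e1 : phiAB (4 * A) c k = 2 * c * ((4 * A : ℕ) : ℝ) ^ 2 *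
      (Sp (4 * A) k.1 * Sp (4 * A) k.2) := by
    unfold phiAB
    rw [hodd.neg_one_pow]
    ring
  set s := 2 / (Real.pi * ((4 * A : ℕ) : ℝ)) with hs
  have hs0 : 0 < s := by
    have : (0 : ℝ) < ((4 * A : ℕ) : ℝ) := by exact_mod_cast hR
    positivity
  have h3 : s * s ≤ Sp (4 * A) k.1 * Sp (4 * A) k.2 :=
    mul_le_mul s1 s2 hs0.le (hs0.le.trans s1)
  have h4 : c ^ 2 * (64 / Real.pi ^ 4) ≤ phiAB (4 * A) c k ^ 2 := by
    rw [e1]
    have e2 : c ^ 2 * (64 / Real.pi ^ 4) =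
        4 * c ^ 2 * (((4 * A : ℕ) : ℝ) ^ 2) ^ 2 * (s * s) ^ 2 := by
      have : (0 : ℝ) < ((4 * A : ℕ) : ℝ) := by exact_mod_cast hR
      rw [hs]
      field_simp
      ring
    rw [e2]
    have h5 : (s * s) ^ 2 ≤ (Sp (4 * A) k.1 * Sp (4 * A) k.2) ^ 2 :=
      pow_le_pow_left₀ (by positivity) h3 2
    calc 4 * c ^ 2 * (((4 * A : ℕ) : ℝ) ^ 2) ^ 2 * (s * s) ^ 2 ≤
          4 * c ^ 2 * (((4 * A : ℕ) : ℝ) ^ 2) ^ 2 * (Sp (4 * A) k.1 * Sp (4 * A) k.2) ^ 2 :=
          mul_le_mul_of_nonneg_left h5 (by positivity)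
      _ = _ := by ring
  have hnr : nr k ≤ 1 := by
    have h1 := cnrm_le k.1
    have h2 := cnrm_le k.2
    have h3 := cnrm_pos k.1
    have h4 := cnrm_pos k.2
    unfold nr
    nlinarith
  have hnr0 := nr_pos k
  calc c ^ 2 * (64 / Real.pi ^ 6) * (1 / ((k.1 : ℝ) ^ 2 + (k.2 : ℝ) ^ 2)) =
        (c ^ 2 * (64 / Real.pi ^ 4)) / (Real.pi ^ 2 * ((k.1 : ℝ) ^ 2 + (k.2 : ℝ) ^ 2)) := by
        field_simp
    _ ≤ phiAB (4 * A) c k ^ 2 / (Real.pi ^ 2 * ((k.1 : ℝ) ^ 2 + (k.2 : ℝ) ^ 2)) :=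
        div_le_div_of_nonneg_right h4 (by positivity)
    _ ≤ _ := by
        apply div_le_div_of_nonneg_left (sq_nonneg _) (by positivity)
        exact mul_le_of_le_one_left (by positivity) hnr

/-! ### the limit -/

/-- the fourth power of the mean on a block is at most a mean over the large block -/
lemma chi_four {R : ℕ} (hR : 0 < R) {b : ℝ} (hb : 0 ≤ b) (m : ℤ) (N : ℕ) :
    0 ≤ mR N b (fun h => Real.cos (2 * Real.pi * m * av h)) ∧
    mR N b (fun h => Real.cos (2 * Real.pi * m * av h)) ^ 4 ≤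
      mR (nu R N) b (fun h => Real.cos (pr (uAB hR (2 * Real.pi * m) N) h)) := by
  set c : ℝ := 2 * Real.pi * m with hc
  have e0 : (fun h : Fa N → ℤ => Real.cos (c * av h)) = fun h => Real.cos (avH c h) := by
    funext h
    rw [avH_apply]
  have h0 : 0 ≤ mR N b (fun h => Real.cos (c * av h)) := by
    have := (mR_par (N := N) hb (avH c) 0).2
    rw [e0]
    simpa using this
  have hsA := mR_sub (p := 0) (q := 0) (L := nu R N) (by have := le_nu hR N; omega)
    (by have := le_nu hR N; omega) hb (avH (N := N) c) (fun h k => cos_av_add m h k)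
  have hsB := mR_sub (p := nu R N - N) (q := nu R N - N) (L := nu R N)
    (by have := le_nu hR N; omega)
    (by have := le_nu hR N; omega) hb (avH (N := N) c) (fun h k => cos_av_add m h k)
  -- the two functionals on the large block
  let comp : (Fa N → Fa (nu R N)) → ((Fa (nu R N) → ℤ) →+ ℝ) := fun g =>
    { toFun := fun h => avH c fun v => h (g v)
      map_zero' := by
        show avH c (0 : Fa N → ℤ) = 0
        exact map_zero _
      map_add' := fun a b => by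
        show avH c ((fun v => a (g v)) + fun v => b (g v)) = _
        exact map_add _ _ _ }
  set l := comp (cA hR N) with hl
  set k := comp (cB hR N) with hk
  have hpar := mR_par (N := nu R N) hb l k
  have hpar2 := mR_par (N := nu R N) hb l (-k)
  set X := mR N b (fun h => Real.cos (c * av h)) with hX
  set XA := mR (nu R N) b (fun h => Real.cos (l h)) with hXA
  set XB := mR (nu R N) b (fun h => Real.cos (k h)) with hXB
  have a1 : X ≤ XA := by
    rw [hX, e0]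
    exact hsA
  have a2 : X ≤ XB := by
    rw [hX, e0]
    exact hsB
  have a3 : X ^ 2 ≤ XA * XB := by
    rw [show X ^ 2 = X * X by ring]
    exact mul_le_mul a1 a2 h0 (h0.trans a1)
  have a4 : X ^ 4 ≤ (XA * XB) ^ 2 := by
    have : X ^ 4 = (X ^ 2) ^ 2 := by ring
    rw [this]
    exact pow_le_pow_left₀ (by positivity) a3 2
  have e1 : (fun h : Fa (nu R N) → ℤ => Real.cos (pr (uAB hR c N) h)) =
      fun h => Real.cos (l h - k h) := by
    funext h
    rw [pr_uAB]
    congr 1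
    show _ = avH c (fun v => h (cA hR N v)) - avH c fun v => h (cB hR N v)
    rw [avH_apply, avH_apply]
    ring
  have e2 : (fun h : Fa (nu R N) → ℤ => Real.cos (l h + (-k) h)) =
      fun h => Real.cos (l h - k h) := by
    funext h
    congr 1
  refine ⟨h0, ?_⟩
  rw [e1]
  have h5 := hpar2.2
  rw [e2] at h5
  have h6 : mR (nu R N) b (fun h => Real.cos (l h + k h)) ≤ 1 :=
    (abs_le.1 (mR_le_one (N := nu R N) hb fun h => l h + k h)).2
  have h7 := hpar.1
  calc X ^ 4 ≤ (XA * XB) ^ 2 := a4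
    _ ≤ _ := h7
    _ ≤ 1 * mR (nu R N) b (fun h => Real.cos (l h - k h)) := mul_le_mul_of_nonneg_right h6 h5
    _ = _ := one_mul _

lemma nu_tendsto {R : ℕ} (hR : 0 < R) : Tendsto (fun N => nu R N) atTop atTop :=
  tendsto_atTop_mono (fun N => le_nu hR N) tendsto_id

/-- the mean of the charge on the two corner blocks -/
lemma uAB_lim {R : ℕ} (hR : 0 < R) {b : ℝ} (hb : 0 < b) (c : ℝ) :
    Tendsto (fun N => mR (nu R N) b (fun h => Real.cos (pr (uAB hR c N) h))) atTop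
      (𝓝 (Real.exp (-(helicity b / 2 * ∑' k, qk (phiAB R c) k)))) := by
  have h1 := blk (nu_tendsto hR) hb (fun N => uAB_zero hR c N) (fun N => uAB_sq hR c N)
    (fun k => dct_uAB hR c k)
  have h2 := (Complex.continuous_re.tendsto _).comp h1
  rw [Complex.ofReal_re] at h2
  refine h2.congr fun N => ?_
  have h3 := hMean_char (N := nu R N) hb.le (prH (uAB hR c N))
  have h4 : hMean (nu R N) b (fun h => Complex.exp (Complex.I *
      ((pr (uAB hR c N) h : ℝ) : ℂ))) =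
      (mR (nu R N) b (fun h => Real.cos (pr (uAB hR c N) h)) : ℂ) := h3
  show (hMean (nu R N) b (fun h => Complex.exp (Complex.I *
      ((pr (uAB hR c N) h : ℝ) : ℂ)))).re = _
  rw [h4, Complex.ofReal_re]

/-- **the spatial mean of the heights is equidistributed modulo one** -/
theorem chi_lim {b : ℝ} (hb : 0 < b) (hY : 0 < helicity b) {m : ℤ} (hm : m ≠ 0) :
    Tendsto (fun N => mR N b (fun h => Real.cos (2 * Real.pi * m * av h))) atTop (𝓝 0) := by
  have hpi := Real.pi_pos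
  set c : ℝ := 2 * Real.pi * m with hc
  have hc0 : 0 < c ^ 2 := by
    have : (m : ℝ) ≠ 0 := by exact_mod_cast hm
    have : c ≠ 0 := by rw [hc]; positivity
    positivity
  rw [Metric.tendsto_nhds]
  intro ε hε
  -- choice of the number of blocks
  set δ : ℝ := ε ^ 4 with hδ
  have hδ0 : 0 < δ := by positivity
  set κ : ℝ := helicity b / 2 * (c ^ 2 * (64 / Real.pi ^ 6) / 8) with hκ
  have hκ0 : 0 < κ := by positivity
  obtain ⟨A, hA, hsum⟩ := harm_unbounded ((-Real.log (δ / 2)) / κ)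
  have hR : 0 < 4 * A := by omega
  have h1 := uAB_lim hR hb c
  have hsummable : Summable (qk (phiAB (4 * A) c)) :=
    summable_qk (nu_tendsto hR) (fun N => uAB_sq hR c N) (fun k => dct_uAB hR c k)
  have h2 : Real.exp (-(helicity b / 2 * ∑' k, qk (phiAB (4 * A) c) k)) ≤ δ / 2 := by
    have h3 := sum_phiAB hA c
    have h4 : ∑ k ∈ KA A, qk (phiAB (4 * A) c) k ≤ ∑' k, qk (phiAB (4 * A) c) k :=
      hsummable.sum_le_tsum _ fun k _ => qk_nonneg _ k
    have h5 : -Real.log (δ / 2) ≤ helicity b / 2 * ∑' k, qk (phiAB (4 * A) c) k := by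
      rw [div_le_iff₀ hκ0] at hsum
      calc -Real.log (δ / 2) ≤ (∑ a ∈ range A, 1 / ((a : ℝ) + 1)) * κ := hsum
        _ = helicity b / 2 * (c ^ 2 * (64 / Real.pi ^ 6) *
            ((∑ a ∈ range A, 1 / ((a : ℝ) + 1)) / 8)) := by rw [hκ]; ring
        _ ≤ _ := mul_le_mul_of_nonneg_left (h3.trans h4) (by positivity)
    calc _ ≤ Real.exp (Real.log (δ / 2)) := Real.exp_le_exp.2 (by linarith)
      _ = _ := Real.exp_log (by positivity)
  filter_upwards [h1.eventually (gt_mem_nhds (lt_of_le_of_lt h2 (by linarith : δ / 2 < δ)))]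
    with N hN
  obtain ⟨g0, g1⟩ := chi_four hR hb.le m N
  rw [dist_zero_right, Real.norm_eq_abs, abs_of_nonneg g0]
  have g2 : mR N b (fun h => Real.cos (2 * Real.pi * m * av h)) ^ 4 < ε ^ 4 :=
    lt_of_le_of_lt g1 hN
  exact lt_of_pow_lt_pow_left₀ 4 hε.le g2

/-- the mean of `exp (2 π i m mean)` times a character whose mean stays positive -/
theorem chi_char {ι : Type*} {F : Filter ι} {ν : ι → ℕ} (hν : Tendsto ν F atTop) {b : ℝ}
    (hb : 0 < b) (hY : 0 < helicity b) {m : ℤ} (hm : m ≠ 0) (l : ∀ i, (Fa (ν i) → ℤ) →+ ℝ)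
    {δ : ℝ} (hδ : 0 < δ) (hl : ∀ᶠ i in F, δ ≤ mR (ν i) b (fun h => Real.cos (l i h))) :
    Tendsto (fun i => hMean (ν i) b (fun h =>
      Complex.exp (Complex.I * ((2 * Real.pi * m * av h + l i h : ℝ) : ℂ)))) F (𝓝 0) := by
  have h1 := (chi_lim hb hY hm).comp hν
  have key : ∀ᶠ i in F, ‖hMean (ν i) b (fun h =>
      Complex.exp (Complex.I * ((2 * Real.pi * m * av h + l i h : ℝ) : ℂ)))‖ ^ 2 ≤
      mR (ν i) b (fun h => Real.cos (2 * Real.pi * m * av h)) / δ ^ 2 := by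
    filter_upwards [hl] with i hi
    set c : ℝ := 2 * Real.pi * m with hc
    obtain ⟨LL, hLL⟩ : ∃ LL : (Fa (ν i) → ℤ) →+ ℝ, ∀ h, LL h = c * av h + l i h :=
      ⟨avH c + l i, fun h => by rw [AddMonoidHom.add_apply, avH_apply]⟩
    have e1 : (fun h : Fa (ν i) → ℤ => Complex.exp (Complex.I * ((c * av h + l i h : ℝ) : ℂ))) =
        fun h => Complex.exp (Complex.I * ((LL h : ℝ) : ℂ)) := by
      funext h
      rw [hLL]
    rw [e1, hMean_char hb.le]
    rw [Complex.norm_real, Real.norm_eq_abs, sq_abs]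
    have h2 := mR_par (N := ν i) hb.le LL (l i)
    have e2 : (fun h : Fa (ν i) → ℤ => Real.cos (LL h - l i h)) =
        fun h => Real.cos (c * av h) := by
      funext h
      rw [hLL]
      congr 1
      ring
    have h3 := h2.1
    rw [e2] at h3
    have h4 := h2.2
    have h5 : mR (ν i) b (fun h => Real.cos (LL h + l i h)) ≤ 1 :=
      (abs_le.1 (mR_le_one (N := ν i) hb.le fun h => LL h + l i h)).2
    have e0 : (fun h : Fa (ν i) → ℤ => Real.cos (c * av h)) =
        fun h => Real.cos (avH c h + (0 : (Fa (ν i) → ℤ) →+ ℝ) h) := by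
      funext h
      rw [avH_apply]
      simp
    have h6 : 0 ≤ mR (ν i) b (fun h => Real.cos (c * av h)) := by
      rw [e0]
      exact (mR_par (N := ν i) hb.le (avH c) 0).2
    set P := mR (ν i) b (fun h => Real.cos (LL h))
    set G := mR (ν i) b (fun h => Real.cos (l i h))
    set C := mR (ν i) b (fun h => Real.cos (c * av h))
    set Q := mR (ν i) b (fun h => Real.cos (LL h + l i h))
    rw [le_div_iff₀ (by positivity)]
    calc P ^ 2 * δ ^ 2 ≤ P ^ 2 * G ^ 2 :=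
          mul_le_mul_of_nonneg_left (pow_le_pow_left₀ hδ.le hi 2) (sq_nonneg _)
      _ = (P * G) ^ 2 := by ring
      _ ≤ Q * C := h3
      _ ≤ 1 * C := mul_le_mul_of_nonneg_right h5 h6
      _ = C := one_mul _
  have h2 : Tendsto (fun i => mR (ν i) b (fun h => Real.cos (2 * Real.pi * m * av h)) / δ ^ 2) F
      (𝓝 0) := by
    have := h1.div_const (δ ^ 2)
    rw [zero_div] at this
    exact this
  have h3 : Tendsto (fun i => ‖hMean (ν i) b (fun h =>
      Complex.exp (Complex.I * ((2 * Real.pi * m * av h + l i h : ℝ) : ℂ)))‖ ^ 2) F (𝓝 0) :=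
    squeeze_zero' (Eventually.of_forall fun i => sq_nonneg _) key h2
  rw [tendsto_zero_iff_norm_tendsto_zero]
  have h4 := h3.sqrt
  simpa using h4

/-- **(I1)** for the pairings of `blk` -/
theorem blk_mean {ι : Type*} {F : Filter ι} [F.NeBot] {ν : ι → ℕ} (hν : Tendsto ν F atTop)
    {u : ∀ i, Fa (ν i) → ℝ} {B : ℝ} {φ : ℕ × ℕ → ℝ} {b : ℝ} (hb : 0 < b)
    (hY : 0 < helicity b) {m : ℤ} (hm : m ≠ 0) (h0 : ∀ i, ∑ x, u i x = 0)
    (hB : ∀ i, (∑ x, u i x ^ 2) / ((ν i : ℝ) + 1) ^ 2 ≤ B)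
    (hφ : ∀ k, Tendsto (fun i => dct (ν i) (u i) k) F (𝓝 (φ k))) :
    Tendsto (fun i => hMean (ν i) b (fun h =>
      Complex.exp (Complex.I * ((2 * Real.pi * m * av h + pr (u i) h : ℝ) : ℂ)))) F (𝓝 0) := by
  have h1 := blk hν hb h0 hB hφ
  have h2 := (Complex.continuous_re.tendsto _).comp h1
  rw [Complex.ofReal_re] at h2
  have h3 : Tendsto (fun i => mR (ν i) b (fun h => Real.cos (prH (u i) h))) F
      (𝓝 (Real.exp (-(helicity b / 2 * ∑' k, qk φ k)))) := by
    refine h2.congr fun i => ?_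
    have h3 := hMean_char (N := ν i) hb.le (prH (u i))
    show (hMean (ν i) b (fun h => Complex.exp (Complex.I * ((prH (u i) h : ℝ) : ℂ)))).re = _
    rw [h3, Complex.ofReal_re]
  set E := Real.exp (-(helicity b / 2 * ∑' k, qk φ k)) with hE
  have hE0 : 0 < E := Real.exp_pos _
  have h4 : ∀ᶠ i in F, E / 2 ≤ mR (ν i) b (fun h => Real.cos (prH (u i) h)) := by
    filter_upwards [h3.eventually (lt_mem_nhds (by linarith : E / 2 < E))] with i hi
    exact hi.le
  exact chi_char hν hb hY hm (fun i => prH (u i)) (by positivity) h4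

end Vale.Agent.P159.TM.H963
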