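import Vale.Agent.P159.T1.H934.Cosh
import Vale.Agent.P159.T1.H910.Moment

/-!
Parallelogram inequality for cosines of integer heights, and the effect of removing constraints.
-/

open MeasureTheory Filter Topology

namespace Vale.Agent.P159.TM.H963

open Vale.Agent.P159 Vale.Agent.P159.H353 Vale.Agent.P159.T1.H934 Vale.Agent.P159.T1.H910

section par

variable {H : Type} [AddCommGroup H] {E : Type} [Fintype E]

lemma gw_one (n : E → ℤ) : gw 1 n = 1 := by
  unfold gw
  simp

lemma sin_zero_sum (D : H →+ (E → ℤ)) (J : E → ℝ) (l : H →+ ℝ) :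
    ∑' h, W D J h * Real.sin (l h) = 0 := by
  have h1 := tsum_neg_arg (fun h : H => W D J h * Real.sin (l h))
  have h2 : ∑' h, W D J (-h) * Real.sin (l (-h)) = -∑' h, W D J h * Real.sin (l h) := by
    rw [← tsum_neg]
    refine tsum_congr fun h => ?_
    rw [W_neg, map_neg, Real.sin_neg]
    ring
  linarith

/-- the parallelogram inequality for cosines -/
theorem par_cos {D : H →+ (E → ℤ)} (hD : Function.Injective D) {J : E → ℝ}
    (hJ : ∀ e, 0 ≤ J e) (l m : H →+ ℝ) :
    ((∑' h, W D J h * Real.cos (l h)) * ∑' h, W D J h * Real.cos (m h)) ^ 2 ≤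
      (∑' h, W D J h) ^ 2 * ((∑' h, W D J h * Real.cos ((l + m) h)) *
        ∑' h, W D J h * Real.cos ((l - m) h)) ∧
      0 ≤ ∑' h, W D J h * Real.cos ((l + m) h) := by
  have hW := W_summable (D := D) hD hJ
  have a0 : Summable fun h => |W D J h| := hW.abs
  have ac : ∀ k : H →+ ℝ, Summable fun h => |W D J h * Real.cos (k h)| := fun k =>
    Summable.of_nonneg_of_le (fun _ => abs_nonneg _) (fun h => by
      rw [abs_mul]; exact mul_le_of_le_one_right (abs_nonneg _) (Real.abs_cos_le_one _)) a0
  have as : ∀ k : H →+ ℝ, Summable fun h => |W D J h * Real.sin (k h)| := fun k =>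
    Summable.of_nonneg_of_le (fun _ => abs_nonneg _) (fun h => by
      rw [abs_mul]; exact mul_le_of_le_one_right (abs_nonneg _) (Real.abs_sin_le_one _)) a0
  set Z := ∑' h, W D J h with hZ
  set L := ∑' h, W D J h * Real.cos (l h) with hL
  set M := ∑' h, W D J h * Real.cos (m h) with hM
  set P := ∑' h, W D J h * Real.cos ((l + m) h) with hP
  set Q := ∑' h, W D J h * Real.cos ((l - m) h) with hQ
  have hZpos : 0 < Z := by
    have h1 : W D J 0 ≤ Z := hW.le_tsum 0 fun h _ => W_nonneg hJ h
    have h2 : 0 < W D J (0 : H) := by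
      unfold W
      rw [map_zero]
      exact Finset.prod_pos fun e _ => wI_zero_pos (hJ e)
    linarith
  have quad : ∀ α β : ℝ, 0 ≤ α ^ 2 * (Z * P) + 2 * α * β * (L * M) + β ^ 2 * (Z * Q) := by
    intro α β
    have gb : ∀ h : H, |α * Real.cos ((l h + m h) / 2) + β * Real.cos ((l h - m h) / 2)| ≤
        (|α| + |β|) * gw 1 (D h) := by
      intro h
      rw [gw_one, mul_one]
      refine (abs_add_le _ _).trans (add_le_add ?_ ?_) <;>
      · rw [abs_mul]
        exact mul_le_of_le_one_right (abs_nonneg _) (Real.abs_cos_le_one _)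
    have h0 := dup_gen (D := D) hD hJ (K := 0) (fun _ => le_rfl)
      (g := fun h => α * Real.cos ((l h + m h) / 2) + β * Real.cos ((l h - m h) / 2))
      (C := |α| + |β|) (ρ := 1) le_rfl gb 0 (by simp)
    rw [add_zero] at h0
    have h1 := ((((hasSum_mul_pair (ac (l + m)) a0).add (hasSum_mul_pair a0 (ac (l + m)))).mul_left
      (α ^ 2 / 2)).add (((hasSum_mul_pair (ac l) (ac m)).add
        (hasSum_mul_pair (ac m) (ac l))).mul_left (α * β))).add
      (((hasSum_mul_pair (ac (l - m)) a0).add (hasSum_mul_pair a0 (ac (l - m)))).mul_left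
      (β ^ 2 / 2))
    have e : ∀ x : H × H, (W D J x.1 * W D J x.2 + 0 * (W D J x.1 * W D J x.2)) *
        ((α * Real.cos ((l (x.1 + x.2) + m (x.1 + x.2)) / 2) +
          β * Real.cos ((l (x.1 + x.2) - m (x.1 + x.2)) / 2)) *
        (α * Real.cos ((l (x.1 - x.2) + m (x.1 - x.2)) / 2) +
          β * Real.cos ((l (x.1 - x.2) - m (x.1 - x.2)) / 2))) =
        α ^ 2 / 2 * (W D J x.1 * Real.cos ((l + m) x.1) * W D J x.2 +
          W D J x.1 * (W D J x.2 * Real.cos ((l + m) x.2))) +
        α * β * (W D J x.1 * Real.cos (l x.1) * (W D J x.2 * Real.cos (m x.2)) +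
          W D J x.1 * Real.cos (m x.1) * (W D J x.2 * Real.cos (l x.2))) +
        β ^ 2 / 2 * (W D J x.1 * Real.cos ((l - m) x.1) * W D J x.2 +
          W D J x.1 * (W D J x.2 * Real.cos ((l - m) x.2))) := by
      intro x
      have cc : ∀ A B : ℝ, Real.cos A * Real.cos B = (Real.cos (A + B) + Real.cos (A - B)) / 2 := by
        intro A B
        rw [Real.cos_add, Real.cos_sub]
        ring
      have c1 : Real.cos ((l (x.1 + x.2) + m (x.1 + x.2)) / 2) *
          Real.cos ((l (x.1 - x.2) + m (x.1 - x.2)) / 2) =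
          (Real.cos ((l + m) x.1) + Real.cos ((l + m) x.2)) / 2 := by
        rw [cc]
        simp only [AddMonoidHom.add_apply, map_add, map_sub]
        congr 3 <;> ring
      have c2 : Real.cos ((l (x.1 + x.2) - m (x.1 + x.2)) / 2) *
          Real.cos ((l (x.1 - x.2) - m (x.1 - x.2)) / 2) =
          (Real.cos ((l - m) x.1) + Real.cos ((l - m) x.2)) / 2 := by
        rw [cc]
        simp only [AddMonoidHom.sub_apply, map_add, map_sub]
        congr 3 <;> ring
      have t1 : Real.cos ((l (x.1 + x.2) + m (x.1 + x.2)) / 2) *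
          Real.cos ((l (x.1 - x.2) - m (x.1 - x.2)) / 2) =
          (Real.cos (l x.1 + m x.2) + Real.cos (l x.2 + m x.1)) / 2 := by
        rw [cc]
        simp only [map_add, map_sub]
        congr 3 <;> ring
      have t2 : Real.cos ((l (x.1 + x.2) - m (x.1 + x.2)) / 2) *
          Real.cos ((l (x.1 - x.2) + m (x.1 - x.2)) / 2) =
          (Real.cos (l x.1 - m x.2) + Real.cos (l x.2 - m x.1)) / 2 := by
        rw [cc]
        simp only [map_add, map_sub]
        congr 3 <;> ring
      have c3 : Real.cos ((l (x.1 + x.2) + m (x.1 + x.2)) / 2) *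
          Real.cos ((l (x.1 - x.2) - m (x.1 - x.2)) / 2) +
          Real.cos ((l (x.1 + x.2) - m (x.1 + x.2)) / 2) *
          Real.cos ((l (x.1 - x.2) + m (x.1 - x.2)) / 2) =
          Real.cos (l x.1) * Real.cos (m x.2) + Real.cos (m x.1) * Real.cos (l x.2) := by
        rw [t1, t2, Real.cos_add, Real.cos_add, Real.cos_sub, Real.cos_sub]
        ring
      linear_combination (W D J x.1 * W D J x.2) * (α ^ 2 * c1 + β ^ 2 * c2 + α * β * c3)
    rw [tsum_congr e, h1.tsum_eq] at h0
    rw [← hZ, ← hL, ← hM, ← hP, ← hQ] at h0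
    nlinarith [h0]
  have hPQ : 0 ≤ P := by
    have := quad 1 0
    have h2 : 0 ≤ Z * P := by nlinarith
    exact nonneg_of_mul_nonneg_right h2 hZpos
  have hQ0 : 0 ≤ Q := by
    have := quad 0 1
    have h2 : 0 ≤ Z * Q := by nlinarith
    exact nonneg_of_mul_nonneg_right h2 hZpos
  refine ⟨?_, hPQ⟩
  rcases hQ0.lt_or_eq with h | h
  · have h3 := quad (Z * Q) (-(L * M))
    have h4 : 0 ≤ (Z * Q) * (Z ^ 2 * (P * Q) - (L * M) ^ 2) := by nlinarith
    have h5 := nonneg_of_mul_nonneg_right h4 (mul_pos hZpos h)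
    linarith
  · rw [← h, mul_zero, mul_zero]
    by_contra hc
    push Not at hc
    have h3 := quad 1 (-((Z * P + 1) / (L * M) ^ 2) * (L * M))
    rw [← h] at h3
    have h6 : L * M ≠ 0 := fun h0 => by
      rw [h0] at hc
      norm_num at hc
    have h7 : 2 * 1 * (-((Z * P + 1) / (L * M) ^ 2) * (L * M)) * (L * M) = -2 * (Z * P + 1) := by
      rw [show 2 * 1 * (-((Z * P + 1) / (L * M) ^ 2) * (L * M)) * (L * M) =
        -2 * (((Z * P + 1) / (L * M) ^ 2) * (L * M) ^ 2) by ring,
        div_mul_cancel₀ _ (pow_ne_zero 2 h6)]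
    rw [h7] at h3
    have : 0 ≤ Z * P := mul_nonneg hZpos.le hPQ
    nlinarith

end par

section free

variable {H : Type} [AddCommGroup H] {E : Type} [Fintype E] {C : Type} [Fintype C]

/-- **Expectations of cosines decrease if linear constraints are removed.** -/
theorem free_cos {D : H →+ (E → ℤ)} (hD : Function.Injective D) (c : H →+ (C → ℤ)) {J : E → ℝ}
    (hJ : ∀ e, 0 ≤ J e) (l : H →+ ℝ) :
    (∑' h, W D J h * Real.cos (l h)) * (∑' h, if c h = 0 then W D J h else 0) ≤
      (∑' h, if c h = 0 then W D J h * Real.cos (l h) else 0) * ∑' h, W D J h := by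
  have hinj := addC_inj hD c
  set J' : E ⊕ C → ℝ := Sum.elim J 0 with hJ'
  set K' : ℕ → E ⊕ C → ℝ := fun m => Sum.elim 0 (fun _ => (m : ℝ)) with hK'
  have hJ'0 : ∀ x, 0 ≤ J' x := by rintro (e | y) <;> simp [hJ', hJ]
  have hK'0 : ∀ m x, 0 ≤ K' m x := by
    rintro m (e | y) <;> simp [hK']
  have hadd : ∀ m, J' + K' m = Sum.elim J (fun _ : C => (m : ℝ)) := by
    intro m
    funext x
    rcases x with e | y <;> simp [hJ', hK']
  have w1 : ∀ h : H, W (addC D c) J' h = if c h = 0 then W D J h else 0 := by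
    intro h
    unfold W
    rw [Fintype.prod_sum_type]
    have e1 : ∀ e : E, wI (J' (Sum.inl e)) (addC D c h (Sum.inl e)) = wI (J e) (D h e) :=
      fun e => rfl
    have e2 : ∀ y : C, wI (J' (Sum.inr y)) (addC D c h (Sum.inr y)) =
        if c h y = 0 then 1 else 0 := fun y => wI_zero_left _
    simp only [e1, e2]
    by_cases h1 : c h = 0
    · have h2 : ∀ y : C, c h y = 0 := fun y => congrFun h1 y
      rw [if_pos h1, Finset.prod_eq_one fun y _ => if_pos (h2 y), mul_one]
    · rw [if_neg h1]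
      obtain ⟨y, hy⟩ : ∃ y, c h y ≠ 0 := by
        by_contra hn
        push Not at hn
        exact h1 (funext hn)
      rw [Finset.prod_eq_zero (Finset.mem_univ y) (if_neg hy), mul_zero]
  set z : ℕ → ℝ := fun m => ∏ _y : C, wI m 0 with hz
  have z0 : ∀ m, 0 < z m := fun m => Finset.prod_pos fun y _ => wI_zero_pos (Nat.cast_nonneg m)
  set R : ℕ → H → ℝ := fun m h => ∏ y : C, wI m (c h y) / wI m 0 with hR
  have w2 : ∀ m (h : H), W (addC D c) (J' + K' m) h = z m * (W D J h * R m h) := by
    intro m h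
    rw [hadd]
    unfold W
    rw [Fintype.prod_sum_type]
    have e1 : ∏ y : C, wI (Sum.elim J (fun _ : C => (m : ℝ)) (Sum.inr y))
        (addC D c h (Sum.inr y)) = z m * R m h := by
      simp only [hz, hR]
      rw [← Finset.prod_mul_distrib]
      refine Finset.prod_congr rfl fun y _ => ?_
      rw [mul_div_cancel₀ _ (wI_zero_pos (Nat.cast_nonneg m)).ne']
      rfl
    rw [e1]
    show (∏ e : E, wI (J e) (D h e)) * (z m * R m h) = _
    ring
  have R0 : ∀ m h, 0 ≤ R m h := fun m h => Finset.prod_nonneg fun y _ =>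
    div_nonneg (wI_nonneg (Nat.cast_nonneg m) _) (wI_nonneg (Nat.cast_nonneg m) _)
  have R1 : ∀ m h, R m h ≤ 1 := fun m h => Finset.prod_le_one
    (fun y _ => div_nonneg (wI_nonneg (Nat.cast_nonneg m) _) (wI_nonneg (Nat.cast_nonneg m) _))
    fun y _ => by
      rw [div_le_one (wI_zero_pos (Nat.cast_nonneg m))]
      exact wI_anti (Nat.cast_nonneg m) (by rw [abs_zero]; exact abs_nonneg _)
  have Rlim : ∀ h, Tendsto (fun m => R m h) atTop (𝓝 1) := by
    intro h
    have h1 : Tendsto (fun m => R m h) atTop (𝓝 (∏ _y : C, (1 : ℝ))) :=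
      tendsto_finsetProd _ fun y _ => wI_ratio _
    rwa [Finset.prod_const_one] at h1
  have lim : ∀ f : H → ℝ, (∀ h, |f h| ≤ 1) →
      Tendsto (fun m => ∑' h, W D J h * R m h * f h) atTop (𝓝 (∑' h, W D J h * f h)) := by
    intro f hf
    have hs := W_summable (D := D) hD hJ
    refine tendsto_tsum_of_dominated_convergence (bound := fun h : H => W D J h) hs
      (fun h => ?_) ?_
    · have h1 := ((Rlim h).const_mul (W D J h)).mul_const (f h)
      rwa [mul_one] at h1
    · filter_upwards with m h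
      rw [Real.norm_eq_abs, abs_mul, abs_of_nonneg (mul_nonneg (W_nonneg hJ _) (R0 m h))]
      calc W D J h * R m h * |f h| ≤ W D J h * R m h * 1 :=
            mul_le_mul_of_nonneg_left (hf h) (mul_nonneg (W_nonneg hJ _) (R0 m h))
        _ ≤ W D J h := by
            rw [mul_one]
            exact mul_le_of_le_one_right (W_nonneg hJ _) (R1 m h)
  have l1 := lim (fun h => Real.cos (l h)) (fun h => Real.abs_cos_le_one _)
  have l2 := lim (fun _ => 1) (fun _ => by simp)
  have e1 : ∑' h, W (addC D c) J' h * Real.cos (l h) =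
      ∑' h, if c h = 0 then W D J h * Real.cos (l h) else 0 := by
    refine tsum_congr fun h => ?_
    rw [w1]
    split_ifs
    · rfl
    · rw [zero_mul]
  have e2 : ∑' h, W (addC D c) J' h = ∑' h, if c h = 0 then W D J h else 0 :=
    tsum_congr fun h => w1 h
  have key : ∀ m, (∑' h, W D J h * R m h * Real.cos (l h)) *
      (∑' h, if c h = 0 then W D J h else 0) ≤
      (∑' h, if c h = 0 then W D J h * Real.cos (l h) else 0) * ∑' h, W D J h * R m h * 1 := by
    intro m
    have h1 := mono_cos hinj hJ'0 (hK'0 m) l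
    rw [e1, e2] at h1
    have e3 : ∑' h, W (addC D c) (J' + K' m) h = z m * ∑' h, W D J h * R m h * 1 := by
      rw [← tsum_mul_left]
      exact tsum_congr fun h => by rw [w2, mul_one]
    have e4 : ∑' h, W (addC D c) (J' + K' m) h * Real.cos (l h) =
        z m * ∑' h, W D J h * R m h * Real.cos (l h) := by
      rw [← tsum_mul_left]
      exact tsum_congr fun h => by rw [w2]; ring
    rw [e3, e4] at h1
    have h2 := z0 m
    refine le_of_mul_le_mul_left ?_ h2
    linarith
  have h3 := le_of_tendsto_of_tendsto' (l1.mul_const _) (l2.const_mul _) key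
  simp only [mul_one] at h3
  exact h3

end free

end Vale.Agent.P159.TM.H963
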