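import Vale.Agent.P159.TM.H963.Par

/-!
Expectations of cosines on a subgraph are at most those on the graph.
-/

open MeasureTheory Filter Topology

namespace Vale.Agent.P159.TM.H963

open Vale.Agent.P159 Vale.Agent.P159.H353 Vale.Agent.P159.T1.H934 Vale.Agent.P159.T1.H910

section pin

variable {V E : Type}

/-- heights vanishing at `x0` -/
def pinG (x0 : V) : AddSubgroup (V → ℤ) where
  carrier := {h | h x0 = 0}
  zero_mem' := rfl
  add_mem' := by
    intro a b ha hb
    show a x0 + b x0 = 0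
    rw [show a x0 = 0 from ha, show b x0 = 0 from hb, add_zero]
  neg_mem' := by
    intro a ha
    show -a x0 = 0
    rw [show a x0 = 0 from ha, neg_zero]

/-- gradient of pinned heights -/
def DP (s t : E → V) (x0 : V) : pinG x0 →+ (E → ℤ) := (grd s t).comp (pinG x0).subtype

lemma DP_apply (s t : E → V) (x0 : V) (h : pinG x0) : DP s t x0 h = grd s t h.1 := rfl

lemma pinG_zero {x0 : V} (h : pinG x0) : h.1 x0 = 0 := h.2

lemma DP_inj {s t : E → V} (hc : Conn s t) (x0 : V) : Function.Injective (DP s t x0) := by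
  rw [injective_iff_map_eq_zero]
  intro h hh
  apply Subtype.ext
  funext v
  show h.1 v = 0
  rw [conn_const hc (h := h.1) hh v x0]
  exact h.2

variable [Fintype E]

lemma W_DP (s t : E → V) (x0 : V) (J : E → ℝ) (h : pinG x0) :
    W (DP s t x0) J h = ∏ e, wI (J e) (grd s t h.1 e) := rfl

omit [Fintype E] in
lemma grd_add_const (s t : E → V) (h : V → ℤ) (k : ℤ) :
    grd s t (fun v => h v + k) = grd s t h := by
  funext e
  show h (t e) + k - (h (s e) + k) = h (t e) - h (s e)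
  ring

/-- change of the pinned vertex -/
def pinEquiv (x0 x1 : V) : pinG x0 ≃ pinG x1 where
  toFun h := ⟨fun v => h.1 v + (-h.1 x1), by show h.1 x1 + (-h.1 x1) = 0; ring⟩
  invFun h := ⟨fun v => h.1 v + (-h.1 x0), by show h.1 x0 + (-h.1 x0) = 0; ring⟩
  left_inv h := by
    apply Subtype.ext
    funext v
    have : h.1 x0 = 0 := h.2
    show h.1 v + -h.1 x1 + -(h.1 x0 + -h.1 x1) = h.1 v
    rw [this]; ring
  right_inv h := by
    apply Subtype.ext
    funext v
    have : h.1 x1 = 0 := h.2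
    show h.1 v + -h.1 x0 + -(h.1 x1 + -h.1 x0) = h.1 v
    rw [this]; ring

lemma pin_change (s t : E → V) (x0 x1 : V) (J : E → ℝ) {f : (V → ℤ) → ℝ}
    (hf : ∀ (h : V → ℤ) (k : ℤ), f (fun v => h v + k) = f h) :
    ∑' h : pinG x0, W (DP s t x0) J h * f h.1 = ∑' h : pinG x1, W (DP s t x1) J h * f h.1 := by
  rw [← (pinEquiv x0 x1).tsum_eq]
  refine tsum_congr fun h => ?_
  have h1 : (pinEquiv x0 x1 h).1 = fun v => h.1 v + (-h.1 x1) := rfl
  rw [h1, hf, W_DP, W_DP, h1, grd_add_const]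

end pin

section sub

variable {V V' E' Ec : Type} [Fintype E'] [Fintype Ec] {s t : E' ⊕ Ec → V} {s' t' : E' → V'}

/-- a height function on the subgraph and currents on the other edges -/
def DS (s' t' : E' → V') (x0 : V') (Ec : Type) : (pinG x0 × (Ec → ℤ)) →+ (E' ⊕ Ec → ℤ) where
  toFun x := Sum.elim (grd s' t' x.1.1) x.2
  map_zero' := by
    funext e
    rcases e with e | e
    · show (0 : V' → ℤ) (t' e) - (0 : V' → ℤ) (s' e) = 0
      simp
    · rfl
  map_add' a b := by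
    funext e
    rcases e with e | e
    · show (a.1.1 (t' e) + b.1.1 (t' e)) - (a.1.1 (s' e) + b.1.1 (s' e)) =
        (a.1.1 (t' e) - a.1.1 (s' e)) + (b.1.1 (t' e) - b.1.1 (s' e))
      ring
    · rfl

omit [Fintype E'] [Fintype Ec] in
lemma DS_inj (hc' : Conn s' t') (x0 : V') : Function.Injective (DS s' t' x0 Ec) := by
  intro a b h
  have h1 : DP s' t' x0 a.1 = DP s' t' x0 b.1 := by
    funext e
    exact congrFun h (Sum.inl e)
  have h2 : a.2 = b.2 := by
    funext e
    exact congrFun h (Sum.inr e)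
  exact Prod.ext (DP_inj hc' x0 h1) h2

/-- the constraint: the currents are a gradient -/
def cS (s t : E' ⊕ Ec → V) (s' t' : E' → V') (x0 : V') (F : V → E' ⊕ Ec → ℤ) :
    (pinG x0 × (Ec → ℤ)) →+ (E' ⊕ Ec → ℤ) where
  toFun x := fun e => DS s' t' x0 Ec x e -
    (flF F (DS s' t' x0 Ec x) (t e) - flF F (DS s' t' x0 Ec x) (s e))
  map_zero' := by
    funext e
    simp
  map_add' a b := by
    funext e
    simp only [map_add, Pi.add_apply]
    ring

lemma W_DS (x0 : V') (J : E' ⊕ Ec → ℝ) (x : pinG x0 × (Ec → ℤ)) :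
    W (DS s' t' x0 Ec) J x =
      W (DP s' t' x0) (fun e => J (Sum.inl e)) x.1 * W (idE Ec) (fun e => J (Sum.inr e)) x.2 := by
  unfold W
  rw [Fintype.prod_sum_type]
  rfl

lemma sum_prod_DS (hc' : Conn s' t') (x0 : V') {J : E' ⊕ Ec → ℝ} (hJ : ∀ e, 0 ≤ J e)
    {f : (V' → ℤ) → ℝ} (hf : ∀ h, |f h| ≤ 1) :
    ∑' x : pinG x0 × (Ec → ℤ), W (DS s' t' x0 Ec) J x * f x.1.1 =
      (∑' h : pinG x0, W (DP s' t' x0) (fun e => J (Sum.inl e)) h * f h.1) *
        Real.exp (∑ e, J (Sum.inr e)) := by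
  have hJ1 : ∀ e, 0 ≤ J (Sum.inl e) := fun e => hJ _
  have hJ2 : ∀ e, 0 ≤ J (Sum.inr e) := fun e => hJ _
  have s1 : Summable fun h : pinG x0 =>
      ‖W (DP s' t' x0) (fun e => J (Sum.inl e)) h * f h.1‖ := by
    refine Summable.of_nonneg_of_le (fun _ => norm_nonneg _) (fun h => ?_)
      (W_summable (DP_inj hc' x0) hJ1)
    rw [Real.norm_eq_abs, abs_mul, abs_of_nonneg (W_nonneg hJ1 _)]
    exact mul_le_of_le_one_right (W_nonneg hJ1 _) (hf _)
  have s2 : Summable fun n : Ec → ℤ => ‖W (idE Ec) (fun e => J (Sum.inr e)) n‖ := by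
    refine (W_summable (D := idE Ec) (fun _ _ h => h) hJ2).norm
  rw [← free_one hJ2, tsum_mul_tsum_of_summable_norm s1 s2]
  refine tsum_congr fun x => ?_
  rw [W_DS]
  ring

open Classical in
/-- constrained sums are sums over the heights of the graph -/
lemma constr_DS (hc' : Conn s' t') (ι : V' → V)
    (hs : ∀ e, s (Sum.inl e) = ι (s' e)) (ht : ∀ e, t (Sum.inl e) = ι (t' e)) (x0 : V')
    {F : V → E' ⊕ Ec → ℤ} (hF : ∀ v, ∀ h : V → ℤ, h v - h (ι x0) = ∑ e, F v e * grd s t h e)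
    (J : E' ⊕ Ec → ℝ) (f : (V' → ℤ) → ℝ) :
    (∑' x : pinG x0 × (Ec → ℤ), if cS s t s' t' x0 F x = 0 then
      W (DS s' t' x0 Ec) J x * f x.1.1 else 0) =
      ∑' h : pinG (ι x0), W (DP s t (ι x0)) J h * f (fun v => h.1 (ι v)) := by
  have res : ∀ h : pinG (ι x0), (fun v => h.1 (ι v)) ∈ pinG x0 := fun h => h.2
  -- the map from the heights
  let R : pinG (ι x0) → pinG x0 × (Ec → ℤ) := fun h =>
    (⟨fun v => h.1 (ι v), res h⟩, fun e => grd s t h.1 (Sum.inr e))
  have hDR : ∀ h, DS s' t' x0 Ec (R h) = grd s t h.1 := by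
    intro h
    funext e
    rcases e with e | e
    · show h.1 (ι (t' e)) - h.1 (ι (s' e)) = h.1 (t (Sum.inl e)) - h.1 (s (Sum.inl e))
      rw [hs, ht]
    · rfl
  have hflR : ∀ h : pinG (ι x0), flF F (grd s t h.1) = h.1 := by
    intro h
    funext v
    show ∑ e, F v e * grd s t h.1 e = h.1 v
    rw [← hF v h.1, pinG_zero h, sub_zero]
  have hcR : ∀ h, cS s t s' t' x0 F (R h) = 0 := by
    intro h
    funext e
    show DS s' t' x0 Ec (R h) e -
      (flF F (DS s' t' x0 Ec (R h)) (t e) - flF F (DS s' t' x0 Ec (R h)) (s e)) = 0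
    rw [hDR, hflR]
    exact sub_self _
  have key : ∀ x : pinG x0 × (Ec → ℤ), cS s t s' t' x0 F x = 0 →
      grd s t (flF F (DS s' t' x0 Ec x)) = DS s' t' x0 Ec x := by
    intro x hx
    funext e
    have h1 : DS s' t' x0 Ec x e -
      (flF F (DS s' t' x0 Ec x) (t e) - flF F (DS s' t' x0 Ec x) (s e)) = 0 := congrFun hx e
    show flF F (DS s' t' x0 Ec x) (t e) - flF F (DS s' t' x0 Ec x) (s e) = _
    omega
  have key0 : ∀ x : pinG x0 × (Ec → ℤ), cS s t s' t' x0 F x = 0 →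
      flF F (DS s' t' x0 Ec x) (ι x0) = 0 := by
    intro x hx
    have h1 := hF (ι x0) (flF F (DS s' t' x0 Ec x))
    rw [key x hx, sub_self] at h1
    exact h1.symm
  let eqv : pinG (ι x0) ≃ {x : pinG x0 × (Ec → ℤ) // cS s t s' t' x0 F x = 0} :=
    { toFun := fun h => ⟨R h, hcR h⟩
      invFun := fun x => ⟨flF F (DS s' t' x0 Ec x.1), key0 x.1 x.2⟩
      left_inv := fun h => Subtype.ext (by
        show flF F (DS s' t' x0 Ec (R h)) = h.1
        rw [hDR, hflR])
      right_inv := fun x => Subtype.ext (by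
        apply DS_inj hc' x0
        rw [hDR]
        exact key x.1 x.2) }
  have h1 : ∀ x : pinG x0 × (Ec → ℤ), (if cS s t s' t' x0 F x = 0 then
      W (DS s' t' x0 Ec) J x * f x.1.1 else 0) =
      Set.indicator {x : pinG x0 × (Ec → ℤ) | cS s t s' t' x0 F x = 0}
        (fun x => W (DS s' t' x0 Ec) J x * f x.1.1) x := by
    intro x
    by_cases h2 : cS s t s' t' x0 F x = 0
    · rw [if_pos h2, Set.indicator_of_mem (by exact h2)]
    · rw [if_neg h2, Set.indicator_of_notMem (by exact h2)]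
  rw [tsum_congr h1, ← tsum_subtype]
  refine (eqv.tsum_eq (fun x : {x : pinG x0 × (Ec → ℤ) // cS s t s' t' x0 F x = 0} =>
      W (DS s' t' x0 Ec) J x.1 * f x.1.1.1)).symm.trans ?_
  refine tsum_congr fun h => ?_
  have e1 : (eqv h).1 = R h := rfl
  rw [e1]
  congr 1
  show ∏ e, wI (J e) (DS s' t' x0 Ec (R h) e) = ∏ e, wI (J e) (grd s t h.1 e)
  rw [hDR]

/-- the cosine of a linear functional on a subgraph -/
theorem sub_cos (hc : Conn s t) (hc' : Conn s' t') (ι : V' → V)
    (hs : ∀ e, s (Sum.inl e) = ι (s' e)) (ht : ∀ e, t (Sum.inl e) = ι (t' e)) (x0 : V')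
    {J : E' ⊕ Ec → ℝ} (hJ : ∀ e, 0 ≤ J e) (l : (V' → ℤ) →+ ℝ) :
    (∑' h : pinG x0, W (DP s' t' x0) (fun e => J (Sum.inl e)) h * Real.cos (l h.1)) *
        (∑' h : pinG (ι x0), W (DP s t (ι x0)) J h) ≤
      (∑' h : pinG (ι x0), W (DP s t (ι x0)) J h * Real.cos (l fun v => h.1 (ι v))) *
        ∑' h : pinG x0, W (DP s' t' x0) (fun e => J (Sum.inl e)) h := by
  classical
  choose F hF using fun v => exists_flowZ hc (ι x0) v
  let L : (pinG x0 × (Ec → ℤ)) →+ ℝ :=
    { toFun := fun x => l x.1.1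
      map_zero' := by
        show l (0 : V' → ℤ) = 0
        exact map_zero l
      map_add' := fun a b => by
        show l (a.1.1 + b.1.1) = _
        exact map_add l _ _ }
  have hmain := free_cos (D := DS s' t' x0 Ec) (DS_inj hc' x0) (cS s t s' t' x0 F) hJ L
  have a1 := sum_prod_DS (Ec := Ec) hc' x0 hJ (f := fun h => Real.cos (l h))
    (fun h => Real.abs_cos_le_one _)
  have a2 := sum_prod_DS (Ec := Ec) hc' x0 hJ (f := fun _ => (1 : ℝ)) (fun h => by simp)
  have b1 := constr_DS hc' ι hs ht x0 hF J (fun h => Real.cos (l h))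
  have b2 := constr_DS hc' ι hs ht x0 hF J (fun _ => (1 : ℝ))
  simp only [mul_one] at a2 b2
  have hL : ∀ x : pinG x0 × (Ec → ℤ), Real.cos (L x) = Real.cos (l x.1.1) := fun _ => rfl
  simp only [hL] at hmain
  rw [a1, a2, b2] at hmain
  have b1' : (∑' x : pinG x0 × (Ec → ℤ), if cS s t s' t' x0 F x = 0 then
      W (DS s' t' x0 Ec) J x * Real.cos (l x.1.1) else 0) =
      ∑' h : pinG (ι x0), W (DP s t (ι x0)) J h * Real.cos (l fun v => h.1 (ι v)) := by
    convert b1 using 3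
  have h1 : ∀ (p : Prop) [Decidable p] (a : ℝ), (if p then a else 0) = if p then a else 0 :=
    fun _ _ _ => rfl
  rw [b1'] at hmain
  have hpos := Real.exp_pos (∑ e, J (Sum.inr e))
  refine le_of_mul_le_mul_left ?_ hpos
  nlinarith [hmain]

end sub

end Vale.Agent.P159.TM.H963
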